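import Mathlib.Combinatorics.Enumerative.Partition.Basic
import Mathlib.Analysis.SpecialFunctions.Log.Basic
import Mathlib.Analysis.SpecialFunctions.Pow.Asymptotics
import Mathlib.Data.Multiset.Sort
import Mathlib.Data.List.GetD

/-!
# P241: subexponential growth of the number of cells of the skeleta of `MU`
-/

namespace Vale.Agent.P241.H251

open Finset

/-! ### Partitions -/

theorem count_mul_le_sum (s : Multiset ℕ) (i : ℕ) : s.count i * i ≤ s.sum := by
  have h1 : Multiset.replicate (s.count i) i ≤ s := Multiset.le_count_iff_replicate_le.mp le_rfl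
  obtain ⟨t, ht⟩ := Multiset.le_iff_exists_add.mp h1
  have h2 := congrArg Multiset.sum ht
  rw [Multiset.sum_add, Multiset.sum_replicate, smul_eq_mul] at h2
  omega

theorem card_mul_le_sum (s : Multiset ℕ) (M : ℕ) (h : ∀ i ∈ s, M ≤ i) :
    Multiset.card s * M ≤ s.sum := by
  induction s using Multiset.induction with
  | empty => simp
  | cons a s ih =>
    have h1 := ih fun i hi => h i (Multiset.mem_cons_of_mem hi)
    have h2 := h a (Multiset.mem_cons_self a s)
    rw [Multiset.card_cons, Multiset.sum_cons, add_mul, one_mul]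
    omega

theorem sum_filter_le (s : Multiset ℕ) (P : ℕ → Prop) [DecidablePred P] :
    (s.filter P).sum ≤ s.sum := by
  have h := congrArg Multiset.sum (Multiset.filter_add_not P s)
  rw [Multiset.sum_add] at h
  omega

theorem part_le {n : ℕ} (x : Nat.Partition n) {i : ℕ} (h : i ∈ x.parts) : i ≤ n := by
  have h1 := count_mul_le_sum x.parts i
  have h2 : 1 ≤ x.parts.count i := Multiset.one_le_count_iff_mem.mpr h
  rw [x.parts_sum] at h1
  nlinarith

/-- The decreasing list of the parts which are larger than `M`. -/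
noncomputable def big (M : ℕ) {n : ℕ} (x : Nat.Partition n) : List ℕ :=
  (x.parts.filter (fun i => M < i)).sort (· ≤ ·)

theorem length_big (M : ℕ) {n : ℕ} (x : Nat.Partition n) : (big M x).length ≤ n / (M + 1) := by
  unfold big
  rw [Multiset.length_sort, Nat.le_div_iff_mul_le (Nat.succ_pos M)]
  calc _ ≤ (x.parts.filter (fun i => M < i)).sum :=
        card_mul_le_sum _ _ fun i hi => (Multiset.mem_filter.mp hi).2
    _ ≤ x.parts.sum := sum_filter_le _ _
    _ = n := x.parts_sum

theorem mem_big {M n : ℕ} {x : Nat.Partition n} {i : ℕ} :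
    i ∈ big M x ↔ i ∈ x.parts ∧ M < i := by
  unfold big
  rw [Multiset.mem_sort, Multiset.mem_filter]

/-- The code of a partition: the multiplicities of the parts `≤ M` and the list of the others. -/
noncomputable def code (M : ℕ) {n : ℕ} (x : Nat.Partition n) :
    (Fin (M + 1) → Fin (n + 1)) × (Fin (n / (M + 1)) → Fin (n + 1)) :=
  (fun i => ⟨x.parts.count (i : ℕ), by
      rcases Nat.eq_zero_or_pos (i : ℕ) with h | h
      · rw [h, Multiset.count_eq_zero_of_notMem fun h0 => (x.parts_pos h0).ne' rfl]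
        omega
      · have h1 := count_mul_le_sum x.parts i
        rw [x.parts_sum] at h1
        have h2 : x.parts.count (i : ℕ) ≤ x.parts.count (i : ℕ) * (i : ℕ) :=
          Nat.le_mul_of_pos_right _ h
        omega⟩,
    fun j => ⟨(big M x).getD (j : ℕ) 0, by
      by_cases h : (j : ℕ) < (big M x).length
      · rw [List.getD_eq_getElem _ _ h]
        have := part_le x (mem_big.mp (List.getElem_mem h)).1
        omega
      · rw [List.getD_eq_default _ _ (not_lt.mp h)]
        omega⟩)

theorem code_injective (M n : ℕ) : Function.Injective (code M (n := n)) := by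
  intro x y h
  have h1 : ∀ i ≤ M, x.parts.count i = y.parts.count i := by
    intro i hi
    have := congrFun (congrArg Prod.fst h) ⟨i, by omega⟩
    simpa [code] using congrArg Fin.val this
  have h2 : ∀ j, j < n / (M + 1) → (big M x).getD j 0 = (big M y).getD j 0 := by
    intro j hj
    have := congrFun (congrArg Prod.snd h) ⟨j, hj⟩
    simpa [code] using congrArg Fin.val this
  have key : ∀ z w : Nat.Partition n,
      (∀ j, j < n / (M + 1) → (big M z).getD j 0 = (big M w).getD j 0) →
      (big M z).length ≤ (big M w).length := by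
    intro z w hzw
    by_contra hlt
    rw [not_le] at hlt
    have ha := hzw (big M w).length (hlt.trans_le (length_big M z))
    rw [List.getD_eq_default _ _ le_rfl, List.getD_eq_getElem _ _ hlt] at ha
    have := (mem_big.mp (List.getElem_mem hlt)).2
    omega
  have h3 : big M x = big M y := by
    have hl : (big M x).length = (big M y).length :=
      le_antisymm (key x y h2) (key y x fun j hj => (h2 j hj).symm)
    refine List.ext_getElem hl fun j hj hj' => ?_
    have ha := h2 j (hj.trans_le (length_big M x))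
    rwa [List.getD_eq_getElem _ _ hj, List.getD_eq_getElem _ _ hj'] at ha
  have h4 : x.parts.filter (fun i => M < i) = y.parts.filter (fun i => M < i) := by
    have := congrArg (fun l : List ℕ => (l : Multiset ℕ)) h3
    simpa [big] using this
  refine Nat.Partition.ext (Multiset.ext.mpr fun i => ?_)
  by_cases hi : i ≤ M
  · exact h1 i hi
  · have := congrArg (Multiset.count i) h4
    rwa [Multiset.count_filter_of_pos (not_le.mp hi), Multiset.count_filter_of_pos (not_le.mp hi)]
      at this

theorem card_partition_le (n : ℕ) :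
    Fintype.card (Nat.Partition n) ≤ (n + 1) ^ (2 * Nat.sqrt n + 1) := by
  have h := Fintype.card_le_of_injective _ (code_injective (Nat.sqrt n) n)
  rw [Fintype.card_prod, Fintype.card_fun, Fintype.card_fun, Fintype.card_fin, Fintype.card_fin,
    Fintype.card_fin, ← pow_add] at h
  refine h.trans (Nat.pow_le_pow_right (Nat.succ_pos n) ?_)
  have h1 : n / (Nat.sqrt n + 1) < Nat.sqrt n + 1 :=
    Nat.div_lt_of_lt_mul (Nat.lt_succ_sqrt n)
  omega

/-! ### Subexponential sequences grow slowly somewhere -/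

/-- A function `f : ℕ → ℕ` which is subexponential. -/
def Subexp (f : ℕ → ℕ) : Prop :=
  ∀ ε : ℝ, 0 < ε → ∃ C : ℝ, ∀ n, (f n : ℝ) ≤ C * Real.exp (ε * n)

theorem exists_slow {f : ℕ → ℕ} (hf : Subexp f) (h0 : ∃ n, 0 < f n) (hm : Monotone f) (c K N : ℕ) :
    ∃ D, N ≤ D ∧ K * (f (D + c) - f D) < f D := by
  obtain ⟨n0, hn0⟩ := h0
  by_contra hcon
  push Not at hcon
  -- from `N' := max N n0` on, `f` grows by the factor `1 + 1/K` when the argument grows by `c`
  have hK : 0 < K := by
    rcases Nat.eq_zero_or_pos K with h | h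
    · subst h
      have h1 := hcon (max N n0) (le_max_left _ _)
      have h2 := hm (le_max_right N n0)
      omega
    · exact h
  have hc : 0 < c := by
    rcases Nat.eq_zero_or_pos c with h | h
    · subst h
      have h1 := hcon (max N n0) (le_max_left _ _)
      have h2 := hm (le_max_right N n0)
      simp at h1
      omega
    · exact h
  set M := max N n0 with hM
  have hKr : (0 : ℝ) < K := by exact_mod_cast hK
  have hcr : (0 : ℝ) < c := by exact_mod_cast hc
  have step : ∀ j : ℕ, (1 + 1 / (K : ℝ)) ^ j ≤ (f (M + j * c) : ℝ) := by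
    intro j
    induction j with
    | zero =>
      have h2 : f n0 ≤ f M := hm (le_max_right N n0)
      simp only [pow_zero, zero_mul, add_zero]
      exact_mod_cast (by omega : 1 ≤ f M)
    | succ j ih =>
      have h1 := hcon (M + j * c) ((le_max_left _ _).trans (Nat.le_add_right _ _))
      have h2 : f (M + j * c) ≤ f (M + j * c + c) := hm (Nat.le_add_right _ _)
      have h3 : (f (M + j * c) : ℝ) ≤ K * ((f (M + j * c + c) : ℝ) - f (M + j * c)) := by
        have : f (M + j * c) ≤ K * (f (M + j * c + c) - f (M + j * c)) := h1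
        have h4 : ((f (M + j * c) : ℕ) : ℝ) ≤
            ((K * (f (M + j * c + c) - f (M + j * c)) : ℕ) : ℝ) := by exact_mod_cast this
        rw [Nat.cast_mul, Nat.cast_sub h2] at h4
        exact h4
      have h5 : (1 + 1 / (K : ℝ)) * (f (M + j * c) : ℝ) ≤ (f (M + j * c + c) : ℝ) := by
        have h6 : (1 / (K : ℝ)) * f (M + j * c) ≤ (f (M + j * c + c) : ℝ) - f (M + j * c) := by
          rw [one_div, inv_mul_le_iff₀ hKr]
          exact h3
        linarith
      rw [pow_succ, show M + (j + 1) * c = M + j * c + c by ring, mul_comm]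
      refine le_trans ?_ h5
      exact mul_le_mul_of_nonneg_left ih (by positivity)
  -- compare with a small exponential
  obtain ⟨r, hr0, hr⟩ : ∃ r : ℝ, 0 < r ∧ Real.exp r = 1 + 1 / (K : ℝ) :=
    ⟨Real.log (1 + 1 / (K : ℝ)), Real.log_pos (by
      have : (0 : ℝ) < 1 / K := by positivity
      linarith), Real.exp_log (by positivity)⟩
  obtain ⟨C, hC⟩ := hf (r / (2 * c)) (by positivity)
  have h7 : ∀ j : ℕ, Real.exp (r * j / 2) ≤ C * Real.exp (r / (2 * c) * M) := by
    intro j
    have h8 := (step j).trans (hC (M + j * c))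
    rw [← hr, ← Real.exp_nat_mul] at h8
    have h9 : r / (2 * c) * ((M + j * c : ℕ) : ℝ) = r / (2 * c) * M + r * j / 2 := by
      push_cast
      field_simp
    rw [h9, Real.exp_add, ← mul_assoc] at h8
    have h10 : Real.exp (j * r) = Real.exp (r * j / 2) * Real.exp (r * j / 2) := by
      rw [← Real.exp_add]
      congr 1
      ring
    rw [h10] at h8
    exact le_of_mul_le_mul_right h8 (Real.exp_pos _)
  obtain ⟨j, hj⟩ := exists_nat_gt (2 * (C * Real.exp (r / (2 * c) * M)) / r)
  have h11 := h7 j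
  have h12 : r * j / 2 + 1 ≤ Real.exp (r * j / 2) := Real.add_one_le_exp _
  have h13 : C * Real.exp (r / (2 * c) * M) < r * j / 2 := by
    rw [div_lt_iff₀ hr0] at hj
    linarith
  linarith

/-! ### The number of partitions of size at most `n` -/

/-- The number of partitions of size at most `n` (the number of cells of dimension at most `2 n`
of `MU`). -/
noncomputable def pc (n : ℕ) : ℕ := ∑ k ∈ Finset.range (n + 1), Fintype.card (Nat.Partition k)

theorem monotone_pc : Monotone pc := monotone_nat_of_le_succ fun n => by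
  unfold pc
  rw [Finset.sum_range_succ _ (n + 1)]
  exact Nat.le_add_right _ _

theorem pc_pos (n : ℕ) : 0 < pc n :=
  lt_of_lt_of_le (by simp [pc]) (monotone_pc (Nat.zero_le n))

theorem pc_le (n : ℕ) : pc n ≤ (n + 1) ^ (2 * Nat.sqrt n + 2) := by
  unfold pc
  calc ∑ k ∈ Finset.range (n + 1), Fintype.card (Nat.Partition k)
      ≤ ∑ _k ∈ Finset.range (n + 1), (n + 1) ^ (2 * Nat.sqrt n + 1) := by
        refine Finset.sum_le_sum fun k hk => (card_partition_le k).trans ?_
        have hk' : k ≤ n := Nat.lt_succ_iff.mp (Finset.mem_range.mp hk)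
        have h1 : Nat.sqrt k ≤ Nat.sqrt n := Nat.sqrt_le_sqrt hk'
        exact (Nat.pow_le_pow_left (by omega) _).trans
          (Nat.pow_le_pow_right (Nat.succ_pos n) (by omega))
    _ = (n + 1) ^ (2 * Nat.sqrt n + 2) := by
        rw [Finset.sum_const, Finset.card_range, smul_eq_mul]
        ring

theorem subexp_of_le {f : ℕ → ℕ} (a b : ℕ)
    (h : ∀ n, f n ≤ (n + 1) ^ (a * Nat.sqrt n + b)) : Subexp f := by
  intro ε hε
  -- `(a sqrt n + b) log (n + 1) ≤ ε n` eventually
  have h1 : ∀ᶠ n : ℕ in Filter.atTop,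
      ((a : ℝ) * Nat.sqrt n + b) * Real.log (n + 1) ≤ ε * n := by
    have hlog := (isLittleO_log_rpow_atTop (r := 1 / 4) (by norm_num)).bound
      (c := ε / (2 * (a + b + 1))) (by positivity)
    have ht : Filter.Tendsto (fun n : ℕ => ((n : ℝ) + 1)) Filter.atTop Filter.atTop :=
      Filter.tendsto_atTop_add_const_right _ _ tendsto_natCast_atTop_atTop
    filter_upwards [ht.eventually hlog, Filter.eventually_ge_atTop 1] with n hn hn1
    have hn1' : (1 : ℝ) ≤ n := by exact_mod_cast hn1
    have hl0 : 0 ≤ Real.log ((n : ℝ) + 1) := Real.log_nonneg (by linarith)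
    rw [Real.norm_of_nonneg hl0, Real.norm_of_nonneg (by positivity)] at hn
    have hs : (Nat.sqrt n : ℝ) ≤ Real.sqrt n := Real.nat_sqrt_le_real_sqrt
    have hsq : Real.sqrt n ≤ ((n : ℝ) + 1) ^ (1 / 2 : ℝ) := by
      rw [Real.sqrt_eq_rpow]
      exact Real.rpow_le_rpow (by positivity) (by linarith) (by norm_num)
    have hone : (1 : ℝ) ≤ ((n : ℝ) + 1) ^ (1 / 2 : ℝ) :=
      Real.one_le_rpow (by linarith) (by norm_num)
    have h2 : ((a : ℝ) * Nat.sqrt n + b) ≤ (a + b + 1) * ((n : ℝ) + 1) ^ (1 / 2 : ℝ) := by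
      have ha : (a : ℝ) * Nat.sqrt n ≤ a * ((n : ℝ) + 1) ^ (1 / 2 : ℝ) :=
        mul_le_mul_of_nonneg_left (hs.trans hsq) (by positivity)
      have hb : (b : ℝ) ≤ b * ((n : ℝ) + 1) ^ (1 / 2 : ℝ) :=
        le_mul_of_one_le_right (by positivity) hone
      nlinarith
    have h3 : ((n : ℝ) + 1) ^ (1 / 2 : ℝ) * ((n : ℝ) + 1) ^ (1 / 4 : ℝ) ≤ (n : ℝ) + 1 := by
      rw [← Real.rpow_add (by positivity)]
      calc ((n : ℝ) + 1) ^ (1 / 2 + 1 / 4 : ℝ) ≤ ((n : ℝ) + 1) ^ (1 : ℝ) :=
            Real.rpow_le_rpow_of_exponent_le (by linarith) (by norm_num)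
        _ = _ := Real.rpow_one _
    calc ((a : ℝ) * Nat.sqrt n + b) * Real.log (n + 1)
        ≤ ((a + b + 1) * ((n : ℝ) + 1) ^ (1 / 2 : ℝ)) *
          (ε / (2 * (a + b + 1)) * ((n : ℝ) + 1) ^ (1 / 4 : ℝ)) := by
          exact mul_le_mul h2 hn hl0 (by positivity)
      _ = ε / 2 * (((n : ℝ) + 1) ^ (1 / 2 : ℝ) * ((n : ℝ) + 1) ^ (1 / 4 : ℝ)) := by
          field_simp
      _ ≤ ε / 2 * ((n : ℝ) + 1) := mul_le_mul_of_nonneg_left h3 (by positivity)
      _ ≤ ε * n := by nlinarith
  obtain ⟨N, hN⟩ := Filter.eventually_atTop.mp h1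
  have hval : ∀ n, ((f n : ℕ) : ℝ) ≤
      Real.exp (((a : ℝ) * Nat.sqrt n + b) * Real.log (n + 1)) := by
    intro n
    have h4 : ((f n : ℕ) : ℝ) ≤ (((n + 1) ^ (a * Nat.sqrt n + b) : ℕ) : ℝ) := by
      exact_mod_cast h n
    refine h4.trans (le_of_eq ?_)
    have h5 : (0 : ℝ) < (n : ℝ) + 1 := by positivity
    have h6 : Real.exp (((a : ℝ) * Nat.sqrt n + b) * Real.log (n + 1)) =
        ((n : ℝ) + 1) ^ ((a : ℝ) * Nat.sqrt n + b) := by
      rw [Real.rpow_def_of_pos h5, mul_comm]
    rw [h6, Nat.cast_pow, ← Real.rpow_natCast]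
    push_cast
    rfl
  refine ⟨1 + ∑ n ∈ Finset.range N, ((f n : ℕ) : ℝ), fun n => ?_⟩
  have hs0 : 0 ≤ ∑ n ∈ Finset.range N, ((f n : ℕ) : ℝ) :=
    Finset.sum_nonneg fun _ _ => Nat.cast_nonneg _
  rcases lt_or_ge n N with hn | hn
  · have h5 : ((f n : ℕ) : ℝ) ≤ ∑ n ∈ Finset.range N, ((f n : ℕ) : ℝ) :=
      Finset.single_le_sum (f := fun n => ((f n : ℕ) : ℝ)) (fun _ _ => Nat.cast_nonneg _)
        (Finset.mem_range.mpr hn)
    have h6 : 1 ≤ Real.exp (ε * n) := Real.one_le_exp (by positivity)
    nlinarith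
  · have h7 := (hval n).trans (Real.exp_le_exp.mpr (hN n hn))
    have h8 := Real.exp_pos (ε * n)
    nlinarith

theorem subexp_pc : Subexp pc := subexp_of_le 2 2 pc_le

/-- The growth step: `2 ρ (b_{D+c} - b_D) + 1 ≤ b_D` for some (arbitrarily large) `D`. -/
theorem exists_growth (c ρ N : ℕ) :
    ∃ D, N ≤ D ∧ 2 * (ρ * (pc (D + c) - pc D)) + 1 ≤ pc D := by
  obtain ⟨D, hD, h⟩ := exists_slow subexp_pc ⟨0, pc_pos 0⟩ monotone_pc c (2 * ρ) N
  refine ⟨D, hD, ?_⟩
  rw [mul_assoc] at h
  omega

end Vale.Agent.P241.H251
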